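import Mathlib

/-!
Helper lemmas on group algebras of torsion-free groups: restriction to countable subgroups,
the outer product `tens`, and descent of zero divisors along finite Galois extensions.
-/

namespace Vale.Agent.P201

open MonoidAlgebra

universe u v w

/-- Only the identity has finite order. -/
def TF (G : Type v) [Monoid G] : Prop := ∀ g : G, IsOfFinOrder g → g = 1

/-- There is a countable torsion-free group (in universe `v`) whose group algebra over `R`
has nonzero zero divisors. -/
def HasZD (R : Type u) [CommRing R] : Prop :=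
  ∃ (G : Type v) (_ : Group G), TF G ∧ Countable G ∧
    ∃ a b : MonoidAlgebra R G, a ≠ 0 ∧ b ≠ 0 ∧ a * b = 0

lemma TF.of_injective {G : Type v} {H : Type w} [Monoid G] [Monoid H] (f : G →* H)
    (hf : Function.Injective f) (h : TF H) : TF G :=
  fun g hg => hf (by rw [map_one]; exact h _ (f.isOfFinOrder hg))

lemma TF.prod {G : Type v} {H : Type w} [Monoid G] [Monoid H] (hG : TF G) (hH : TF H) :
    TF (G × H) :=
  fun x hx => Prod.ext (hG _ ((MonoidHom.fst G H).isOfFinOrder hx))
    (hH _ ((MonoidHom.snd G H).isOfFinOrder hx))

lemma countable_closure {G : Type v} [Group G] (s : Set G) (hs : s.Countable) :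
    Countable (Subgroup.closure s) := by
  have : Countable s := hs.to_subtype
  have : Countable (FreeGroup s) := Quot.mk_surjective.countable
  have h : (Subgroup.closure s : Set G).Countable := by
    have hr := FreeGroup.range_lift_eq_closure (f := ((↑) : s → G))
    rw [Subtype.range_coe] at hr
    rw [← hr, MonoidHom.coe_range]
    exact Set.countable_range _
  exact h.to_subtype

section Restrict

variable {R : Type u} [CommRing R] {G : Type v} [Group G]

/-- Finitely many elements of a group algebra come from a countable subgroup. -/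
lemma exists_countable_lift (a b : MonoidAlgebra R G) :
    ∃ (H : Subgroup G) (a' b' : MonoidAlgebra R H), Countable H ∧
      mapDomainRingHom R H.subtype a' = a ∧ mapDomainRingHom R H.subtype b' = b := by
  classical
  let s : Finset G := a.coeff.support ∪ b.coeff.support
  refine ⟨Subgroup.closure (s : Set G),
    comapDomain Subtype.val Subtype.val_injective a,
    comapDomain Subtype.val Subtype.val_injective b,
    countable_closure _ s.finite_toSet.countable, ?_, ?_⟩
  · refine mapDomain_comapDomain (fun x hx => ⟨⟨x, Subgroup.subset_closure ?_⟩, rfl⟩) _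
    exact Finset.mem_coe.2 (Finset.mem_union_left _ hx)
  · refine mapDomain_comapDomain (fun x hx => ⟨⟨x, Subgroup.subset_closure ?_⟩, rfl⟩) _
    exact Finset.mem_coe.2 (Finset.mem_union_right _ hx)

lemma hasZD_of (hG : TF G) (a b : MonoidAlgebra R G) (ha : a ≠ 0) (hb : b ≠ 0)
    (hab : a * b = 0) : HasZD.{u, v} R := by
  obtain ⟨H, a', b', hc, ea, eb⟩ := exists_countable_lift a b
  refine ⟨H, inferInstance, hG.of_injective H.subtype H.subtype_injective, hc, a', b', ?_, ?_, ?_⟩
  · rintro rfl; exact ha (by simpa using ea.symm)
  · rintro rfl; exact hb (by simpa using eb.symm)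
  · refine mapDomain_injective (R := R) (f := H.subtype) H.subtype_injective ?_
    rw [mapDomain_zero, mapDomain_mul]
    change mapDomainRingHom R H.subtype a' * mapDomainRingHom R H.subtype b' = 0
    rw [ea, eb, hab]

end Restrict

section Tens

variable {L : Type u} [CommRing L] {G : Type v} [Group G] {H : Type w} [Group H]

/-- The outer product `a ⊗ b` in the group algebra of `G × H`. -/
noncomputable def tens (a : MonoidAlgebra L G) (b : MonoidAlgebra L H) :
    MonoidAlgebra L (G × H) :=
  mapDomainRingHom L (MonoidHom.inl G H) a * mapDomainRingHom L (MonoidHom.inr G H) b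

lemma tens_single (g : G) (r : L) (h : H) (s : L) :
    tens (single g r) (single h s) = single (g, h) (r * s) := by
  simp [tens, single_mul_single]

lemma coeff_tens (a : MonoidAlgebra L G) (b : MonoidAlgebra L H) (g : G) (h : H) :
    (tens a b).coeff (g, h) = a.coeff g * b.coeff h := by
  classical
  induction a using MonoidAlgebra.induction_linear with
  | zero => simp [tens]
  | add x y hx hy =>
    simp only [tens, map_add, add_mul, coeff_add, Finsupp.add_apply] at hx hy ⊢
    rw [hx, hy]
  | single g' r =>
    induction b using MonoidAlgebra.induction_linear with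
    | zero => simp [tens]
    | add x y hx hy =>
      simp only [tens, map_add, mul_add, coeff_add, Finsupp.add_apply] at hx hy ⊢
      rw [hx, hy]
    | single h' s =>
      rw [tens_single]
      simp only [coeff_single, Finsupp.single_apply, Prod.mk.injEq]
      by_cases h1 : g' = g <;> by_cases h2 : h' = h <;> simp [h1, h2]

lemma tens_ne_zero [IsDomain L] {a : MonoidAlgebra L G} {b : MonoidAlgebra L H}
    (ha : a ≠ 0) (hb : b ≠ 0) : tens a b ≠ 0 := by
  obtain ⟨g, hg⟩ := Finsupp.ne_iff.1 (fun h => ha (coeff_eq_zero.1 h))
  obtain ⟨h, hh⟩ := Finsupp.ne_iff.1 (fun h => hb (coeff_eq_zero.1 h))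
  intro h0
  have := coeff_tens a b g h
  rw [h0] at this
  simp only [coeff_zero, Finsupp.coe_zero, Pi.zero_apply] at this hg hh
  exact mul_ne_zero hg hh this.symm

lemma tens_commute (a : MonoidAlgebra L G) (b : MonoidAlgebra L H) :
    Commute (mapDomainRingHom L (MonoidHom.inl G H) a)
      (mapDomainRingHom L (MonoidHom.inr G H) b) := by
  induction a using MonoidAlgebra.induction_linear with
  | zero => simp
  | add x y hx hy => rw [map_add]; exact hx.add_left hy
  | single g r =>
    induction b using MonoidAlgebra.induction_linear with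
    | zero => simp
    | add x y hx hy => rw [map_add]; exact hx.add_right hy
    | single h s =>
      simp only [mapDomainRingHom_apply, mapDomain_single]
      exact single_commute_single (MonoidHom.commute_inl_inr g h) (Commute.all r s)

lemma tens_mul (a c : MonoidAlgebra L G) (b d : MonoidAlgebra L H) :
    tens a b * tens c d = tens (a * c) (b * d) := by
  simp only [tens, map_mul]
  exact (tens_commute c b).symm.mul_mul_mul_comm _ _

lemma map_tens (f : L →+* L) (a : MonoidAlgebra L G) (b : MonoidAlgebra L H) :
    mapRingHom (G × H) f (tens a b) = tens (mapRingHom G f a) (mapRingHom H f b) := by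
  have e1 := RingHom.congr_fun (mapRingHom_comp_mapDomainRingHom f (MonoidHom.inl G H)) a
  have e2 := RingHom.congr_fun (mapRingHom_comp_mapDomainRingHom f (MonoidHom.inr G H)) b
  simp only [RingHom.comp_apply] at e1 e2
  rw [tens, map_mul, e1, e2, tens]

end Tens

section Galois

variable {F : Type w} {L : Type u} [Field F] [Field L] [Algebra F L] [FiniteDimensional F L]
  [IsGalois F L]

/-- From `a * b = 0` over `L`, a countable torsion-free group `H` and nonzero `X`, `Y` over `L`
with `σ X * Y = 0` for all `σ` in a given finite set of automorphisms. -/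
lemma exists_twisted (hL : HasZD.{u, v} L) (S : Finset Gal(L/F)) :
    ∃ (H : Type v) (_ : Group H), TF H ∧ Countable H ∧
      ∃ X Y : MonoidAlgebra L H, X ≠ 0 ∧ Y ≠ 0 ∧
        ∀ σ ∈ S, mapRingHom H (σ : L →+* L) X * Y = 0 := by
  classical
  obtain ⟨G, _, hG, hGc, a, b, ha, hb, hab⟩ := hL
  induction S using Finset.induction_on with
  | empty =>
    exact ⟨PUnit, inferInstance, fun g _ => Subsingleton.elim _ _, inferInstance, 1, 1,
      one_ne_zero, one_ne_zero, by simp⟩
  | @insert τ S _ ih =>
    obtain ⟨H, _, hH, hHc, X, Y, hX, hY, hXY⟩ := ih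
    let a' := mapRingHom G (τ.symm : L →+* L) a
    refine ⟨G × H, inferInstance, hG.prod hH, inferInstance, tens a' X, tens b Y,
      tens_ne_zero (fun h => ha ?_) hX, tens_ne_zero hb hY, fun σ hσ => ?_⟩
    · ext g
      have h1 : (τ.symm : L →+* L) (a.coeff g) = 0 := by
        have h2 := congrArg (fun z : MonoidAlgebra L G => z.coeff g) h
        simpa [a', coeff_mapRingHom] using h2
      simpa using h1
    · rw [map_tens, tens_mul]
      rcases Finset.mem_insert.1 hσ with rfl | hσS
      · have e : mapRingHom G (σ : L →+* L) a' = a := by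
          ext g; simp [a', coeff_mapRingHom]
        rw [e, hab]
        simp [tens]
      · rw [hXY σ hσS]
        simp [tens]

omit [IsGalois F L] in
/-- Multiply a nonzero element by a scalar so that its trace is nonzero. -/
lemma exists_trace_ne_zero [Algebra.IsSeparable F L] {H : Type v} [Group H]
    (X : MonoidAlgebra L H) (hX : X ≠ 0) :
    ∃ c : L, MonoidAlgebra.map (Algebra.trace F L).toAddMonoidHom (c • X) ≠ 0 := by
  obtain ⟨g, hg⟩ := Finsupp.ne_iff.1 (fun h => hX (coeff_eq_zero.1 h))
  obtain ⟨e, he⟩ := Algebra.trace_surjective F L 1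
  refine ⟨e * (X.coeff g)⁻¹, fun h => ?_⟩
  have h2 := congrArg (fun z : MonoidAlgebra F H => z.coeff g) h
  simp only [coeff_map, Finsupp.mapRange_apply, coeff_smul_apply, smul_eq_mul,
    coeff_zero, Finsupp.coe_zero, Pi.zero_apply] at h2 hg
  rw [inv_mul_cancel_right₀ hg] at h2
  simp [he] at h2

/-- Galois descent: zero divisors over `L` give zero divisors over `F` in a bigger group. -/
theorem HasZD.descend (hL : HasZD.{u, v} L) : HasZD.{w, v} F := by
  classical
  obtain ⟨H, _, hH, hHc, X, Y, hX, hY, hXY⟩ := exists_twisted (F := F) hL Finset.univ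
  have all : ∀ σ ρ : Gal(L/F),
      mapRingHom H (σ : L →+* L) X * mapRingHom H (ρ : L →+* L) Y = 0 := by
    intro σ ρ
    have h := congrArg (mapRingHom H (ρ : L →+* L))
      (hXY (σ.trans ρ.symm) (Finset.mem_univ _))
    rw [map_mul, map_zero] at h
    convert h using 2
    ext g
    simp [coeff_mapRingHom]
  obtain ⟨c, hc⟩ := exists_trace_ne_zero (F := F) X hX
  obtain ⟨d, hd⟩ := exists_trace_ne_zero (F := F) Y hY
  refine ⟨H, inferInstance, hH, hHc, _, _, hc, hd, ?_⟩
  have key : ∀ (e : L) (Z : MonoidAlgebra L H),
      mapRingHom H (algebraMap F L)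
          (MonoidAlgebra.map (Algebra.trace F L).toAddMonoidHom (e • Z)) =
        ∑ σ : Gal(L/F), σ e • mapRingHom H (σ : L →+* L) Z := by
    intro e Z
    ext g
    simp [coeff_mapRingHom, trace_eq_sum_automorphisms, coeff_sum, Finset.sum_apply']
  apply MonoidAlgebra.map_injective (algebraMap F L).toAddMonoidHom (algebraMap F L).injective
  rw [MonoidAlgebra.map_zero]
  change mapRingHom H (algebraMap F L) _ = 0
  rw [map_mul, key, key, Finset.sum_mul_sum]
  refine Finset.sum_eq_zero fun σ _ => Finset.sum_eq_zero fun ρ _ => ?_
  rw [smul_mul_smul_comm, all σ ρ, smul_zero]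

end Galois

end Vale.Agent.P201
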