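import Vale.Agent.P201.Basic

/-!
Specialisation of zero divisors: characteristic zero to characteristic `p`, and
characteristic `p` to the prime field.
-/

namespace Vale.Agent.P201

open MonoidAlgebra

universe u v w

/-- An element with coefficients in the range of an injective ring map comes from the source. -/
lemma exists_map_eq {A : Type w} {K : Type u} [CommRing A] [CommRing K] {G : Type v} [Group G]
    (f : A →+* K) (a : MonoidAlgebra K G) (ha : ∀ g, a.coeff g ∈ Set.range f) :
    ∃ a' : MonoidAlgebra A G, mapRingHom G f a' = a := by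
  have h : a ∈ Set.range (MonoidAlgebra.map (M := G) (f : A →+ K)) := by
    rw [range_map]; exact ha
  obtain ⟨a', h'⟩ := h
  exact ⟨a', h'⟩

lemma map_ne_zero_of_coeff {A : Type w} {K : Type u} [CommRing A] [CommRing K] {G : Type v}
    [Group G] (f : A →+* K) (a : MonoidAlgebra A G) (g : G) (h : f (a.coeff g) ≠ 0) :
    mapRingHom G f a ≠ 0 := by
  intro h0
  apply h
  have h2 := congrArg (fun z : MonoidAlgebra K G => z.coeff g) h0
  simpa [coeff_mapRingHom] using h2

/-- In a valuation subring of `K`, a nonzero element of `K[G]` can be scaled to have all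
coefficients in the subring and one coefficient equal to `1`. -/
lemma exists_normalised {K : Type u} [Field K] (V : ValuationSubring K) {G : Type v} [Group G]
    (a : MonoidAlgebra K G) (ha : a ≠ 0) :
    ∃ (c : K) (a' : MonoidAlgebra V G) (g : G),
      mapRingHom G V.subtype a' = c • a ∧ a'.coeff g = 1 := by
  classical
  have hne : a.coeff.support.Nonempty :=
    Finsupp.support_nonempty_iff.2 (fun h => ha (coeff_eq_zero.1 h))
  obtain ⟨g, hg, hmax⟩ := a.coeff.support.exists_max_image
    (fun g => V.valuation (a.coeff g)) hne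
  have hg0 : a.coeff g ≠ 0 := Finsupp.mem_support_iff.1 hg
  have hmem : ∀ h, ((a.coeff g)⁻¹ • a).coeff h ∈ Set.range V.subtype := by
    intro h
    refine ⟨⟨_, ?_⟩, rfl⟩
    change (a.coeff g)⁻¹ * a.coeff h ∈ V
    rw [← V.valuation_le_one_iff, map_mul, map_inv₀]
    have hv : V.valuation (a.coeff g) ≠ 0 := by simpa using hg0
    rw [inv_mul_le_one₀ (zero_lt_iff.2 hv)]
    by_cases hh : a.coeff h = 0
    · simp [hh]
    · exact hmax h (Finsupp.mem_support_iff.2 hh)
  obtain ⟨a', ha'⟩ := exists_map_eq _ _ hmem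
  refine ⟨_, a', g, ha', ?_⟩
  apply Subtype.ext
  have h2 := congrArg (fun z : MonoidAlgebra K G => z.coeff g) ha'
  simpa [coeff_mapRingHom, inv_mul_cancel₀ hg0] using h2

/-- Zero divisors in characteristic zero give zero divisors in each prime characteristic. -/
theorem HasZD.residue {K : Type u} [Field K] [CharZero K] (p : ℕ) (hp : p.Prime)
    (h : HasZD.{u, v} K) : ∃ (k : Type u) (_ : Field k), CharP k p ∧ HasZD.{u, v} k := by
  obtain ⟨G, _, hG, hGc, a, b, ha, hb, hab⟩ := h
  let A : Subring K := (Int.castRingHom K).range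
  have hp_mem : (p : K) ∈ A := ⟨p, by simp⟩
  let I : Ideal A := Ideal.span {⟨(p : K), hp_mem⟩}
  have hI : I ≠ ⊤ := by
    rw [Ne, Ideal.span_singleton_eq_top, isUnit_iff_exists_inv]
    rintro ⟨⟨y, n, rfl⟩, hy⟩
    have h1 : ((p * n : ℤ) : K) = ((1 : ℤ) : K) := by
      push_cast
      exact congrArg Subtype.val hy
    exact hp.ne_one (Nat.eq_one_of_dvd_one
      (Int.natCast_dvd_natCast.1 ⟨n, (Int.cast_injective h1).symm⟩))
  obtain ⟨V, hAV, hV⟩ := Ideal.image_subset_nonunits_valuationSubring I hI
  have hpV : (p : K) ∈ V.nonunits := hV ⟨_, Ideal.subset_span rfl, rfl⟩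
  let k := IsLocalRing.ResidueField V
  let π : V →+* k := IsLocalRing.residue V
  have hpk : ((p : ℕ) : k) = 0 := by
    rw [← map_natCast π, IsLocalRing.residue_eq_zero_iff]
    rw [ValuationSubring.mem_nonunits_iff_exists_mem_maximalIdeal] at hpV
    obtain ⟨h', hm⟩ := hpV
    convert hm using 1
    exact Subtype.ext (by simp)
  refine ⟨k, inferInstance, (CharP.charP_iff_prime_eq_zero hp).2 hpk, ?_⟩
  obtain ⟨c, a', g, ea, hag⟩ := exists_normalised V a ha
  obtain ⟨d, b', g', eb, hbg⟩ := exists_normalised V b hb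
  have h0 : a' * b' = 0 := by
    apply MonoidAlgebra.map_injective V.subtype.toAddMonoidHom Subtype.val_injective
    rw [MonoidAlgebra.map_zero]
    change mapRingHom G V.subtype _ = 0
    rw [map_mul, ea, eb, smul_mul_smul_comm, hab, smul_zero]
  refine hasZD_of hG (mapRingHom G π a') (mapRingHom G π b') ?_ ?_ ?_
  · exact map_ne_zero_of_coeff π a' g (by simp [π, hag])
  · exact map_ne_zero_of_coeff π b' g' (by simp [π, hbg])
  · rw [← map_mul, h0, map_zero]

/-- Zero divisors in characteristic `p` give zero divisors over a finite field of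
characteristic `p`. -/
theorem HasZD.finiteField {K : Type u} [Field K] (p : ℕ) [Fact p.Prime]
    [Algebra (ZMod p) K] (h : HasZD.{u, v} K) :
    ∃ (k : Type u) (_ : Field k) (_ : Algebra (ZMod p) k),
      FiniteDimensional (ZMod p) k ∧ HasZD.{u, v} k := by
  classical
  obtain ⟨G, _, hG, hGc, a, b, ha, hb, hab⟩ := h
  let s : Finset K := a.coeff.support.image a.coeff ∪ b.coeff.support.image b.coeff
  let A := Algebra.adjoin (ZMod p) (s : Set K)
  have : Algebra.FiniteType (ZMod p) A :=
    (Subalgebra.fg_iff_finiteType A).1 ⟨s, rfl⟩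
  have : IsJacobsonRing A := isJacobsonRing_of_finiteType (A := ZMod p)
  have mem : ∀ (z : MonoidAlgebra K G), z.coeff.support.image z.coeff ⊆ s →
      ∀ g, z.coeff g ∈ Set.range A.val.toRingHom := by
    intro z hz g
    refine ⟨⟨z.coeff g, ?_⟩, rfl⟩
    by_cases hg : z.coeff g = 0
    · rw [hg]; exact zero_mem _
    · exact Algebra.subset_adjoin
        (hz (Finset.mem_image_of_mem _ (Finsupp.mem_support_iff.2 hg)))
  obtain ⟨a', ea⟩ := exists_map_eq _ a (mem a Finset.subset_union_left)
  obtain ⟨b', eb⟩ := exists_map_eq _ b (mem b Finset.subset_union_right)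
  have hinj : Function.Injective A.val.toRingHom := Subtype.val_injective
  obtain ⟨g, hg⟩ := Finsupp.ne_iff.1
    (fun h => ha (by rw [← ea, (coeff_eq_zero (x := a')).1 h, map_zero] : a = 0))
  obtain ⟨g', hg'⟩ := Finsupp.ne_iff.1
    (fun h => hb (by rw [← eb, (coeff_eq_zero (x := b')).1 h, map_zero] : b = 0))
  have hne : a'.coeff g * b'.coeff g' ≠ 0 := mul_ne_zero hg hg'
  have hj : a'.coeff g * b'.coeff g' ∉ (⊥ : Ideal A).jacobson := by
    rw [IsJacobsonRing.out inferInstance (I := (⊥ : Ideal A))
      (Ideal.isRadical_iff_quotient_reduced _ |>.2 inferInstance)]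
    simpa using hne
  obtain ⟨m, hm, hnm⟩ : ∃ m : Ideal A, m.IsMaximal ∧ a'.coeff g * b'.coeff g' ∉ m := by
    by_contra hc
    exact hj (Ideal.mem_sInf.2 fun {m} hmm =>
      by_contra fun hnot => hc ⟨m, hmm.2, hnot⟩)
  let := Ideal.Quotient.field m
  refine ⟨A ⧸ m, inferInstance, inferInstance,
    finite_of_finite_type_of_isJacobsonRing (ZMod p) (A ⧸ m), ?_⟩
  have h0 : a' * b' = 0 := by
    apply MonoidAlgebra.map_injective A.val.toRingHom.toAddMonoidHom hinj
    rw [MonoidAlgebra.map_zero]
    change mapRingHom G A.val.toRingHom _ = 0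
    rw [map_mul, ea, eb, hab]
  refine hasZD_of hG (mapRingHom G (Ideal.Quotient.mk m) a')
    (mapRingHom G (Ideal.Quotient.mk m) b') ?_ ?_ ?_
  · refine map_ne_zero_of_coeff _ _ g fun h => hnm ?_
    exact m.mul_mem_right _ (Ideal.Quotient.eq_zero_iff_mem.1 h)
  · refine map_ne_zero_of_coeff _ _ g' fun h => hnm ?_
    exact m.mul_mem_left _ (Ideal.Quotient.eq_zero_iff_mem.1 h)
  · rw [← map_mul, h0, map_zero]

/-- Zero divisors over a field of characteristic `p` or `0` give zero divisors over `ZMod p`. -/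
theorem HasZD.primeField {K : Type u} [Field K] (p : ℕ) [hp : Fact p.Prime]
    (hK : CharP K p ∨ CharZero K) (h : HasZD.{u, v} K) : HasZD.{0, v} (ZMod p) := by
  obtain ⟨K', _, hK', h'⟩ : ∃ (k : Type u) (_ : Field k), CharP k p ∧ HasZD.{u, v} k := by
    rcases hK with hK | hK
    · exact ⟨K, inferInstance, hK, h⟩
    · exact h.residue p hp.out
  let := ZMod.algebra K' p
  obtain ⟨k, _, _, hfin, hk⟩ := h'.finiteField p
  have : Finite k := Module.finite_of_finite (ZMod p)
  exact hk.descend

end Vale.Agent.P201
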