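import Vale.Agent.P201.Basic

/-!
Wreath products with the infinite cyclic group: square-zero elements and the embedding of a
countable torsion-free group into a two-generated torsion-free group.
-/

namespace Vale.Agent.P201

open MonoidAlgebra

universe u v w

/-- The regular wreath product of `G` with the infinite cyclic group. -/
abbrev Wr (G : Type v) [Group G] : Type v := RegularWreathProduct G (Multiplicative ℤ)

variable {G : Type v} [Group G]

/-- The coordinate at an integer. -/
def at' (x : Wr G) (n : ℤ) : G := x.left (Multiplicative.ofAdd n)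

/-- Translation amount. -/
def deg (x : Wr G) : ℤ := Multiplicative.toAdd x.right

@[simp] lemma deg_mul (x y : Wr G) : deg (x * y) = deg x + deg y := rfl
@[simp] lemma deg_inv (x : Wr G) : deg x⁻¹ = -deg x := rfl
@[simp] lemma deg_one : deg (1 : Wr G) = 0 := rfl

@[simp] lemma at'_mul (x y : Wr G) (n : ℤ) : at' (x * y) n = at' x n * at' y (n - deg x) := by
  change x.left _ * y.left _ = x.left _ * y.left _
  congr 2
  change -deg x + n = n - deg x
  ring

@[simp] lemma at'_inv (x : Wr G) (n : ℤ) : at' x⁻¹ n = (at' x (n + deg x))⁻¹ := by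
  change (x.left _)⁻¹ = (x.left _)⁻¹
  congr 2
  change deg x + n = n + deg x
  ring

@[simp] lemma at'_one (n : ℤ) : at' (1 : Wr G) n = 1 := rfl

lemma wr_ext {x y : Wr G} (h : deg x = deg y) (h' : ∀ n, at' x n = at' y n) : x = y :=
  RegularWreathProduct.ext (funext fun m => h' m.toAdd) (congrArg Multiplicative.ofAdd h)

/-- The element with prescribed coordinates and translation amount. -/
def mkWr (f : ℤ → G) (k : ℤ) : Wr G := ⟨fun m => f m.toAdd, Multiplicative.ofAdd k⟩

@[simp] lemma at'_mkWr (f : ℤ → G) (k n : ℤ) : at' (mkWr f k) n = f n := rfl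
@[simp] lemma deg_mkWr (f : ℤ → G) (k : ℤ) : deg (mkWr f k) = k := rfl

lemma TF.wr (hG : TF G) : TF (Wr G) := by
  intro x hx
  obtain ⟨n, hn, hxn⟩ := isOfFinOrder_iff_pow_eq_one.1 hx
  have hdeg : ∀ m : ℕ, deg (x ^ m) = m * deg x := by
    intro m
    induction m with
    | zero => simp
    | succ m ih => rw [pow_succ, deg_mul, ih]; push_cast; ring
  have h0 : deg x = 0 := by
    have h := hdeg n
    rw [hxn, deg_one] at h
    exact (mul_eq_zero.1 h.symm).resolve_left (by exact_mod_cast hn.ne')
  have hat : ∀ (m : ℕ) (j : ℤ), at' (x ^ m) j = at' x j ^ m := by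
    intro m j
    induction m with
    | zero => simp
    | succ m ih => rw [pow_succ, at'_mul, hdeg, h0, ih, pow_succ]; simp
  refine wr_ext (by simp [h0]) fun j => ?_
  rw [at'_one]
  exact hG _ (isOfFinOrder_iff_pow_eq_one.2 ⟨n, hn, by rw [← hat, hxn, at'_one]⟩)

/-- The copy of `G` at coordinate `0`. -/
def base : G →* Wr G where
  toFun g := mkWr (fun n => if n = 0 then g else 1) 0
  map_one' := wr_ext (by simp) (by simp)
  map_mul' g h := wr_ext (by simp) fun n => by by_cases hn : n = 0 <;> simp [hn]

@[simp] lemma at'_base (g : G) (n : ℤ) : at' (base g) n = if n = 0 then g else 1 := rfl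
@[simp] lemma deg_base (g : G) : deg (base g) = 0 := rfl

lemma base_injective : Function.Injective (base : G → Wr G) := fun g h e => by
  simpa using congrArg (fun x => at' x 0) e

/-- The generator of the infinite cyclic group inside the wreath product. -/
def shift : Wr G := mkWr (fun _ => 1) 1

lemma base_shift_base_injective :
    Function.Injective (fun q : G × G => base q.1 * shift * base q.2) := by
  rintro ⟨p, q⟩ ⟨p', q'⟩ e
  have h0 := congrArg (fun x => at' x 0) e
  have h1 := congrArg (fun x => at' x 1) e
  simp [shift] at h0 h1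
  exact Prod.ext h0 h1

/-- Zero divisors give a nonzero element squaring to zero, over a countable group. -/
theorem exists_sq_zero {R : Type u} [CommRing R] [IsDomain R] (h : HasZD.{u, v} R) :
    ∃ (H : Type v) (_ : Group H), TF H ∧ Countable H ∧
      ∃ x : MonoidAlgebra R H, x ≠ 0 ∧ x * x = 0 := by
  obtain ⟨G, _, hG, hGc, a, b, ha, hb, hab⟩ := h
  let x : MonoidAlgebra R (Wr G) :=
    mapDomainRingHom R base b * single shift 1 * mapDomainRingHom R base a
  have hx' : ∀ u w : MonoidAlgebra R G,
      mapDomainRingHom R base u * single shift 1 * mapDomainRingHom R base w =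
        mapDomain (fun q : G × G => base q.1 * shift * base q.2) (tens u w) := by
    intro u w
    induction u using MonoidAlgebra.induction_linear with
    | zero => simp [tens]
    | add u v hu hv => simp only [tens, map_add, add_mul, mapDomain_add] at hu hv ⊢; rw [hu, hv]
    | single g r =>
      induction w using MonoidAlgebra.induction_linear with
      | zero => simp [tens]
      | add u v hu hv =>
        simp only [tens, map_add, mul_add, mapDomain_add] at hu hv ⊢; rw [hu, hv]
      | single g' s => simp [tens_single, single_mul_single]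
  have hx : x = mapDomain (fun q : G × G => base q.1 * shift * base q.2) (tens b a) := hx' b a
  have hx0 : x ≠ 0 := fun h0 => tens_ne_zero hb ha
    (mapDomain_injective base_shift_base_injective (by rw [← hx, h0, mapDomain_zero]))
  have hxx : x * x = 0 := by
    have h2 : mapDomainRingHom R base a * mapDomainRingHom R base b =
        (0 : MonoidAlgebra R (Wr G)) := by
      rw [← map_mul, hab, map_zero]
    calc x * x = mapDomainRingHom R base b * single shift 1 *
          (mapDomainRingHom R base a * mapDomainRingHom R base b) *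
          (single shift 1 * mapDomainRingHom R base a) := by simp only [x, mul_assoc]
      _ = 0 := by rw [h2]; simp
  obtain ⟨H, x', _, hc, ex, _⟩ := exists_countable_lift x x
  refine ⟨H, inferInstance, (hG.wr).of_injective H.subtype H.subtype_injective, hc, x', ?_, ?_⟩
  · rintro rfl; exact hx0 (by simpa using ex.symm)
  · apply mapDomain_injective (R := R) (f := H.subtype) H.subtype_injective
    rw [mapDomain_zero, mapDomain_mul]
    change mapDomainRingHom R H.subtype x' * mapDomainRingHom R H.subtype x' = 0
    rw [ex, hxx]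

/-- The element with coordinate `g` at all nonnegative integers. -/
def step (g : G) : Wr G := mkWr (fun n => if 0 ≤ n then g else 1) 0

open scoped commutatorElement in
lemma base_eq_commutator (g : G) : base g = ⁅step g, (shift : Wr G)⁆ := by
  refine wr_ext (by simp [commutatorElement_def, shift, step]) fun n => ?_
  simp only [commutatorElement_def, step, shift, at'_mul, at'_inv, at'_mkWr, deg_mul, deg_inv,
    deg_mkWr, at'_base]
  rcases lt_trichotomy n 0 with hn | rfl | hn
  · simp [hn.ne, not_le.2 hn, show ¬ 1 ≤ n by omega]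
  · simp
  · simp [hn.ne', hn.le, show (1 : ℤ) ≤ n by omega]

lemma two_pow_add_eq {a b i j : ℕ} (hij : i ≠ j) (h : 2 ^ a + 2 ^ j = 2 ^ b + 2 ^ i) :
    a = i ∧ b = j := by
  have low : ∀ {a b i j : ℕ}, i < j → 2 ^ a + 2 ^ j = 2 ^ b + 2 ^ i → a = i ∧ b = j := by
    intro a b i j hij h
    have hab : a < b := by
      by_contra hba
      have h1 := Nat.pow_le_pow_right (show 0 < 2 by norm_num) (not_lt.1 hba)
      have h2 := Nat.pow_lt_pow_right (show 1 < 2 by norm_num) hij
      omega
    have hai : a = i := by
      rcases lt_trichotomy a i with hai | hai | hai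
      · have d : 2 ^ (a + 1) ∣ 2 ^ a := (Nat.dvd_add_left (pow_dvd_pow 2 (hai.trans hij))).1
          (h ▸ dvd_add (pow_dvd_pow 2 hab) (pow_dvd_pow 2 hai))
        have := (Nat.pow_dvd_pow_iff_le_right (show 1 < 2 by norm_num)).1 d
        omega
      · exact hai
      · have d : 2 ^ (i + 1) ∣ 2 ^ i := (Nat.dvd_add_right (pow_dvd_pow 2 (hai.trans hab))).1
          (h ▸ dvd_add (pow_dvd_pow 2 hai) (pow_dvd_pow 2 hij))
        have := (Nat.pow_dvd_pow_iff_le_right (show 1 < 2 by norm_num)).1 d
        omega
    refine ⟨hai, Nat.pow_right_injective (le_refl 2) ?_⟩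
    subst hai
    change 2 ^ b = 2 ^ j
    omega
  rcases lt_or_gt_of_ne hij with hl | hl
  · exact low hl h
  · have := low (a := b) (b := a) hl h.symm
    exact ⟨this.2, this.1⟩

open scoped commutatorElement in
/-- A countable torsion-free group embeds in a two-generated torsion-free group in `Type`. -/
theorem exists_two_gen_embedding (hG : TF G) [Countable G] :
    ∃ (S : Type) (_ : Group S), TF S ∧ (∃ a b : S, Subgroup.closure {a, b} = ⊤) ∧
      ∃ e : G →* S, Function.Injective e := by
  classical
  let T : Set (Wr G) := insert shift (Set.range step)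
  let S₁ := Subgroup.closure T
  have : Countable S₁ := countable_closure _ ((Set.countable_range _).insert _)
  obtain ⟨h, hh⟩ := exists_surjective_nat S₁
  let pw : ℕ → ℤ := fun i => (2 : ℤ) ^ i
  have hpw : Function.Injective pw := fun i j e =>
    Nat.pow_right_injective (le_refl 2) (show 2 ^ i = 2 ^ j by
      simp only [pw] at e; exact_mod_cast e)
  let cf : ℤ → S₁ := Function.extend pw h 1
  let s : Wr S₁ := shift
  let c : Wr S₁ := mkWr cf 0
  let S₂ := Subgroup.closure {s, c}
  let conj : ℕ → Wr S₁ := fun i => (s ^ (2 ^ i))⁻¹ * c * s ^ (2 ^ i)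
  have hs : ∀ (m : ℕ), deg (s ^ m) = m ∧ ∀ n, at' (s ^ m) n = 1 := by
    intro m
    induction m with
    | zero => simp
    | succ m ih =>
      rw [pow_succ]
      exact ⟨by rw [deg_mul, ih.1]; simp [s, shift], fun n => by
        rw [at'_mul, ih.2]; simp [s, shift]⟩
  have hconj : ∀ i, deg (conj i) = 0 ∧ ∀ n, at' (conj i) n = cf (n + pw i) := by
    intro i
    simp [conj, c, hs, pw]
  have key : ∀ i j, base ⁅h i, h j⁆ = ⁅conj i, conj j⁆ := by
    intro i j
    refine wr_ext (by simp [commutatorElement_def, hconj]) fun n => ?_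
    have e : at' ⁅conj i, conj j⁆ n = ⁅cf (n + pw i), cf (n + pw j)⁆ := by
      simp [commutatorElement_def, hconj]
    rw [e, at'_base]
    by_cases hn : n = 0
    · subst hn
      simp [cf, hpw.extend_apply]
    rw [if_neg hn]
    by_cases hij : i = j
    · subst hij; simp [commutatorElement_def]
    by_cases ha : ∃ a, pw a = n + pw i
    · by_cases hb : ∃ b, pw b = n + pw j
      · obtain ⟨a, ha⟩ := ha
        obtain ⟨b, hb⟩ := hb
        have hsum : 2 ^ a + 2 ^ j = 2 ^ b + 2 ^ i := by
          have : pw a + pw j = pw b + pw i := by rw [ha, hb]; ring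
          simp only [pw] at this
          exact_mod_cast this
        obtain ⟨rfl, -⟩ := two_pow_add_eq hij hsum
        exact absurd (by linarith) hn
      · simp [cf, Function.extend_apply' _ _ _ hb]
    · simp [cf, Function.extend_apply' _ _ _ ha]
  have hmem : ∀ g : G, base g ∈ S₁ := by
    intro g
    rw [base_eq_commutator]
    have h1 : step g ∈ S₁ := Subgroup.subset_closure (Set.mem_insert_of_mem _ ⟨g, rfl⟩)
    have h2 : (shift : Wr G) ∈ S₁ := Subgroup.subset_closure (Set.mem_insert _ _)
    exact mul_mem (mul_mem (mul_mem h1 h2) (inv_mem h1)) (inv_mem h2)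
  let e₁ : G →* Wr S₁ := base.comp (base.codRestrict S₁ hmem)
  have he₁ : Function.Injective e₁ := by
    intro g g' e
    exact base_injective (congrArg Subtype.val (base_injective (e : _)))
  have he₁mem : ∀ g, e₁ g ∈ S₂ := by
    intro g
    obtain ⟨i, hi⟩ := hh ⟨step g, Subgroup.subset_closure (Set.mem_insert_of_mem _ ⟨g, rfl⟩)⟩
    obtain ⟨j, hj⟩ := hh ⟨shift, Subgroup.subset_closure (Set.mem_insert _ _)⟩
    have hc : ∀ i, conj i ∈ S₂ := by
      intro i
      have h1 : s ∈ S₂ := Subgroup.subset_closure (by simp)
      have h2 : c ∈ S₂ := Subgroup.subset_closure (by simp)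
      exact mul_mem (mul_mem (inv_mem (pow_mem h1 _)) h2) (pow_mem h1 _)
    have e : e₁ g = ⁅conj i, conj j⁆ := by
      rw [← key, hi, hj]
      exact congrArg base (Subtype.ext (base_eq_commutator g))
    rw [e]
    exact mul_mem (mul_mem (mul_mem (hc i) (hc j)) (inv_mem (hc i))) (inv_mem (hc j))
  -- the two-generated group, realised as a quotient of a free group
  let gen : Fin 2 → Wr S₁ := ![s, c]
  let φ : FreeGroup (Fin 2) →* Wr S₁ := FreeGroup.lift gen
  have hrange : φ.range = S₂ := by
    rw [FreeGroup.range_lift_eq_closure]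
    congr 1
    simp [gen, Matrix.range_cons, Matrix.range_empty, Set.pair_comm]
  let eq := QuotientGroup.quotientKerEquivRange φ
  refine ⟨FreeGroup (Fin 2) ⧸ φ.ker, inferInstance,
    TF.of_injective (φ.range.subtype.comp eq.toMonoidHom)
      (φ.range.subtype_injective.comp eq.injective)
      ((hG.wr.of_injective S₁.subtype S₁.subtype_injective).wr),
    ⟨QuotientGroup.mk' _ (FreeGroup.of 0), QuotientGroup.mk' _ (FreeGroup.of 1), ?_⟩,
    eq.symm.toMonoidHom.comp (e₁.codRestrict φ.range (fun g => hrange ▸ he₁mem g)), ?_⟩
  · have h01 : Subgroup.closure (Set.range (FreeGroup.of : Fin 2 → _)) = ⊤ :=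
      FreeGroup.closure_range_of _
    have := congrArg (Subgroup.map (QuotientGroup.mk' φ.ker)) h01
    rw [MonoidHom.map_closure, Subgroup.map_top_of_surjective _
      (QuotientGroup.mk'_surjective _), ← Set.range_comp] at this
    rw [← this]
    congr 1
    ext z
    simp [Fin.exists_fin_two, eq_comm]
  · exact eq.symm.injective.comp (fun g g' e => he₁ (congrArg Subtype.val e))

end Vale.Agent.P201
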